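import Mathlib
import Vale.Agent.P173.Defs
import Vale.Agent.P173.Chains

/-!
P173: well-ordered unions of free groups with free partial unions, in particular almost free groups
of cardinality at most aleph one, have aspherical presentation complexes.
-/

namespace Vale.Agent.Results.P173.AlmostFreeGroups

open Cardinal Vale.Agent.P173

theorem closure_countable {Γ : Type} [Group Γ] {S : Set Γ} (hS : S.Countable) :
    Countable (Subgroup.closure S) := by
  have : Countable S := hS.to_subtype
  have hr : (FreeGroup.lift (Subtype.val : S → Γ)).range = Subgroup.closure S := by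
    rw [FreeGroup.range_lift_eq_closure, Subtype.range_coe]
  have : Countable (FreeGroup S) := inferInstance
  rw [← hr]
  exact (MonoidHom.rangeRestrict_surjective _).countable

theorem almost_free {Γ : Type} [Group Γ] (hcard : #Γ ≤ aleph 1)
    (hfree : ∀ K : Subgroup Γ, Countable K → IsFreeGroup K) : HasAsphericalPresentation Γ := by
  set ι := (aleph 1).ord.ToType
  have hι : #ι = aleph 1 := by simp [ι]
  obtain ⟨e⟩ : Nonempty (Γ ↪ ι) := Cardinal.le_def Γ ι |>.1 (hι ▸ hcard)
  have hIio : ∀ i : ι, (Set.Iio i).Countable := fun i => by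
    rw [← Cardinal.le_aleph0_iff_set_countable, ← Order.lt_succ_iff, succ_aleph0]
    exact Cardinal.mk_Iio_toType_ord_lt i
  let H : ι → Subgroup Γ := fun i => Subgroup.closure (e ⁻¹' Set.Iio i)
  have hHc : ∀ i, Countable (H i) := fun i =>
    closure_countable ((hIio i).preimage e.injective)
  have hmono : Monotone H := fun i j h =>
    Subgroup.closure_mono (Set.preimage_mono (Set.Iio_subset_Iio h))
  have : ∀ i, IsFreeGroup (H i) := fun i => hfree _ (hHc i)
  have hne : NoMaxOrder ι := Cardinal.noMaxOrder (aleph0_le_aleph 1)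
  refine hasAsphericalPresentation_of_free_chain H hmono ?_ fun j => hfree _ ?_
  · rw [eq_top_iff]
    intro x _
    obtain ⟨i, hi⟩ := exists_gt (e x)
    exact Subgroup.mem_iSup_of_mem i (Subgroup.subset_closure hi)
  · have := hHc j
    exact (Subgroup.inclusion_injective (iSup₂_le fun i hi => hmono hi.le :
      (⨆ i, ⨆ _ : i < j, H i) ≤ H j)).countable

theorem result :
    (∀ (ι Γ : Type) [Group Γ] [LinearOrder ι] [WellFoundedLT ι] (H : ι → Subgroup Γ),
      Monotone H → (⨆ i, H i) = ⊤ → (∀ i, IsFreeGroup (H i)) →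
      (∀ j, IsFreeGroup (⨆ i, ⨆ _ : i < j, H i : Subgroup Γ)) →
      HasAsphericalPresentation Γ) ∧
    (∀ (Γ : Type) [Group Γ], #Γ ≤ aleph 1 →
      (∀ K : Subgroup Γ, Countable K → IsFreeGroup K) → HasAsphericalPresentation Γ) := by
  refine ⟨fun ι Γ _ _ _ H hH htop hf hb => ?_, fun Γ _ h1 h2 => almost_free h1 h2⟩
  have := hf
  exact hasAsphericalPresentation_of_free_chain H hH htop hb

end Vale.Agent.Results.P173.AlmostFreeGroups
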